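import Vale.Agent.P011U.IF2
import Vale.Agent.P011UA.A0

/-!
Standard automorphisms on all roots and on the torus; cocharacters.
-/

set_option autoImplicit false
set_option linter.all false

namespace Vale.Agent.P011UP

open Matrix Subgroup Vale.Agent.P011L Vale.Agent.P183CH Vale.Agent.P183A Vale.Agent.P011U

section root

variable {R : RS} {π : Equiv.Perm (Fin R.r)} {m : Fin R.r → ℤ} {J : Set (Fin R.r)} {γ δ : R.Q}

/-- the action of a permutation of the nodes on the root lattice -/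
def pm (π : Equiv.Perm (Fin R.r)) (γ : R.Q) : R.Q := fun i => γ (π.symm i)

theorem pm_α (i : Fin R.r) : pm π (R.α i) = R.α (π i) := funext fun j => by
  simp [pm, RS.α_apply, Equiv.symm_apply_eq]

theorem pm_neg (γ : R.Q) : pm π (-γ) = -pm π γ := rfl

theorem pm_pr (h : Dg R π) (γ : R.Q) (j : Fin R.r) : R.pr (pm π γ) (π j) = R.pr γ j := by
  rw [RS.pr_eq, RS.pr_eq, ← Equiv.sum_comp π]
  exact Finset.sum_congr rfl fun i _ => by rw [h, pm, Equiv.symm_apply_apply]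

theorem pm_s (h : Dg R π) (i : Fin R.r) (γ : R.Q) : pm π (R.s i γ) = R.s (π i) (pm π γ) := by
  rw [RS.s, RS.s, pm_pr h, ← pm_α]
  rfl

theorem pm_nonneg (h : 0 ≤ γ) : 0 ≤ pm π γ := fun _ => h _

theorem pm_In (hJ : ∀ i, π i ∈ J ↔ i ∈ J) (h : R.In J γ) : R.In J (pm π γ) := fun i hi =>
  h _ fun e => hi (by simpa using (hJ _).2 e)

theorem rt_ind (hR : R.Ok) {P : R.Q → Prop} (h0 : ∀ i, P (R.α i))
    (h1 : ∀ i, ∀ γ ∈ R.Φ, P γ → P (R.s i γ)) : ∀ γ ∈ R.Φ, P γ := by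
  intro γ hγ
  obtain ⟨l, i, rfl⟩ := hR.conj γ hγ
  have : l.foldr R.s (R.α i) ∈ R.Φ ∧ P (l.foldr R.s (R.α i)) := by
    clear hγ
    induction l with
    | nil => exact ⟨hR.simple i, h0 i⟩
    | cons j l ih => exact ⟨hR.refl j _ ih.1, h1 j _ ih.1 ih.2⟩
  exact this.2

theorem pm_mem (hR : R.Ok) (h : Dg R π) : ∀ γ ∈ R.Φ, pm π γ ∈ R.Φ :=
  rt_ind hR (fun i => pm_α (π := π) i ▸ hR.simple _) fun i γ _ e => pm_s h i γ ▸ hR.refl _ _ e

/-- the pairing of a root with the cocharacter `m` -/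
def pw (m : Fin R.r → ℤ) (γ : R.Q) : ℤ := ∑ i, R.pr γ i * m i

theorem pw_add (γ δ : R.Q) : pw m (γ + δ) = pw m γ + pw m δ := by
  simp [pw, RS.pr_add, add_mul, Finset.sum_add_distrib]

theorem pw_smul (a : ℤ) (γ : R.Q) : pw m (a • γ) = a * pw m γ := by
  simp only [pw, RS.pr_smul, Finset.mul_sum, mul_assoc]

theorem pw_nsmul (a : ℕ) (γ : R.Q) : pw m (a • γ) = a * pw m γ := by
  rw [← pw_smul, natCast_zsmul]

theorem pw_neg (γ : R.Q) : pw m (-γ) = -pw m γ := by simpa using pw_smul (m := m) (-1) γ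

theorem pw_α (i : Fin R.r) : pw m (R.α i) = (R.A *ᵥ m) i := by
  simp [pw, RS.pr_α, mulVec, dotProduct]

theorem pw_eq (γ : R.Q) : pw m γ = ∑ i, γ i * pw m (R.α i) := by
  simp only [pw, RS.pr_α, RS.pr_eq γ, Finset.sum_mul, Finset.mul_sum, mul_assoc]
  exact Finset.sum_comm

theorem pw_pm (h : Dg R π) (hm : ∀ i, m (π i) = m i) (γ : R.Q) : pw m (pm π γ) = pw m γ := by
  rw [pw, pw, ← Equiv.sum_comp π]
  exact Finset.sum_congr rfl fun i _ => by rw [pm_pr h, hm]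

/-- the cocharacter `m` is dominant, with walls `J` -/
def Dom (m : Fin R.r → ℤ) (J : Set (Fin R.r)) : Prop :=
  (∀ i ∈ J, pw m (R.α i) = 0) ∧ ∀ i, i ∉ J → 0 < pw m (R.α i)

theorem Dom.nn (h : Dom m J) (i : Fin R.r) : 0 ≤ pw m (R.α i) :=
  (em (i ∈ J)).elim (fun e => (h.1 i e).ge) fun e => (h.2 i e).le

theorem Dom.nonneg (h : Dom m J) (hγ : 0 ≤ γ) : 0 ≤ pw m γ :=
  pw_eq (m := m) γ ▸ Finset.sum_nonneg fun i _ => mul_nonneg (hγ i) (h.nn i)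

theorem Dom.zero (h : Dom m J) (hγ : R.In J γ) : pw m γ = 0 :=
  pw_eq (m := m) γ ▸ Finset.sum_eq_zero fun i _ => by
    by_cases e : i ∈ J
    · rw [h.1 i e, mul_zero]
    · rw [hγ i e, zero_mul]

theorem Dom.In (h : Dom m J) (hγ : 0 ≤ γ) (e : pw m γ ≤ 0) : R.In J γ := fun i hi => by
  have h1 := (Finset.sum_eq_zero_iff_of_nonneg fun i _ => mul_nonneg (hγ i) (h.nn i)).1
    ((pw_eq γ).symm.trans (e.antisymm (h.nonneg hγ))) i (Finset.mem_univ i)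
  exact (mul_eq_zero.1 h1).resolve_right (h.2 i hi).ne'

theorem Dom.wj (h : Dom m J) (hR : R.Ok) {w : R.Aut} (hw : w ∈ R.WJ J) (γ : R.Q) :
    pw m (w γ) = pw m γ := by
  rw [← sub_add_cancel (w γ) γ, pw_add, h.zero (hR.sub_In hw γ), zero_add]

theorem mul_inj (hR : R.Ok) {m m' : Fin R.r → ℤ} (h : R.A *ᵥ m = R.A *ᵥ m') : m = m' := by
  have := congrArg (R.A.adjugate *ᵥ ·) h
  simp only [mulVec_mulVec, adjugate_mul, smul_mulVec, one_mulVec] at this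
  exact smul_right_injective _ hR.det this

theorem exists_dom (hR : R.Ok) (J : Set (Fin R.r)) : ∃ m, Dom m J ∧
    ∀ π, Dg R π → (∀ i, π i ∈ J ↔ i ∈ J) → ∀ i, m (π i) = m i := by
  classical
  let v : Fin R.r → ℤ := fun i => if i ∈ J then 0 else R.A.det
  have h1 : R.A *ᵥ (R.A.adjugate *ᵥ v) = R.A.det • v := by
    rw [mulVec_mulVec, mul_adjugate, smul_mulVec, one_mulVec]
  refine ⟨R.A.adjugate *ᵥ v, ⟨fun i hi => ?_, fun i hi => ?_⟩, fun π h hJ => congrFun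
    (mul_inj hR (m := fun i => (R.A.adjugate *ᵥ v) (π i)) (funext fun i => ?_))⟩
  · simp [pw_α, h1, v, hi]
  · simpa [pw_α, h1, v, hi] using hR.det
  · have h2 : (R.A *ᵥ fun i => (R.A.adjugate *ᵥ v) (π i)) i =
        (R.A *ᵥ (R.A.adjugate *ᵥ v)) (π i) := by
      rw [mulVec, mulVec, dotProduct, dotProduct, ← Equiv.sum_comp π (fun j => R.A (π i) j * _)]
      exact Finset.sum_congr rfl fun j _ => by rw [h]
    rw [h2, h1]
    simp [v, hJ]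

end root

variable {R : RS} {K G : Type} [Field K] [Group G] {Γ : RG R K G} (hΓ : Γ.Ok)
  {π : Equiv.Perm (Fin R.r)} {m : Fin R.r → ℤ} {J : Set (Fin R.r)} {γ δ : R.Q}

/-- the cocharacter with the coordinates `m` -/
noncomputable def co (m : Fin R.r → ℤ) : Kˣ →* G :=
  hΓ.hT.comp (Pi.monoidHom fun i => zpowGroupHom (m i))

theorem co_eq (t : Kˣ) : co hΓ m t = hΓ.hT fun i => t ^ m i := rfl

theorem co_mem (t : Kˣ) : co hΓ m t ∈ Γ.T := hΓ.hT_mem fun i => t ^ m i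

theorem prod_zpow {A ι : Type} [CommGroup A] [Fintype ι] (x : A) (e : ι → ℤ) :
    ∏ a, x ^ e a = x ^ ∑ a, e a :=
  (map_prod (zpowersHom _ x) (fun a => Multiplicative.ofAdd (e a)) _).symm.trans
    (congrArg (zpowersHom _ x) (ofAdd_sum _ e).symm)

theorem co_x (hγ : γ ∈ R.Φ) (t : Kˣ) (a : K) :
    co hΓ m t * Γ.x γ a * (co hΓ m t)⁻¹ = Γ.x γ ((t ^ pw m γ : Kˣ) * a) := by
  rw [co_eq, hΓ.hT_x _ hγ, RG.chi0_apply, pw, ← prod_zpow]
  simp only [← _root_.zpow_mul, mul_comm (m _)]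

variable {F F' : Type} [FunLike F G G] [MonoidHomClass F G G] [FunLike F' K K]
  [RingHomClass F' K K] {ψ : F} {σ : F'} {g : G} {c : Fin R.r → Kˣ} (h : Std Γ ψ σ g c π)
include hΓ h

theorem std_sl (i : Fin R.r) (t : Kˣ) : ψ (Γ.h i t * Γ.n i) =
    g * (Γ.h (π i) (c i * Units.map (σ : K →* K) t) * Γ.n (π i)) * g⁻¹ := by
  rw [← hΓ.sl, ← hΓ.sl, map_mul, map_mul, (h.2 i _).1, (h.2 i _).2,
    show ((c i)⁻¹ : Kˣ) * σ (-(t⁻¹ : Kˣ)) = -((c i * Units.map (σ : K →* K) t)⁻¹ : Kˣ) by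
      simp [mul_comm]]
  simp [mul_assoc]

theorem std_n (i : Fin R.r) : ψ (Γ.n i) = g * (Γ.h (π i) (c i) * Γ.n (π i)) * g⁻¹ := by
  simpa using std_sl hΓ h i 1

theorem std_h (i : Fin R.r) (t : Kˣ) :
    ψ (Γ.h i t) = g * Γ.h (π i) (Units.map (σ : K →* K) t) * g⁻¹ := by
  have := std_sl hΓ h i t
  rw [map_mul, std_n hΓ h, mul_comm (c i), map_mul] at this
  rw [eq_mul_inv_of_mul_eq this]
  group

theorem std_hT (s : Fin R.r → Kˣ) :
    ψ (hΓ.hT s) = g * hΓ.hT (fun i => Units.map (σ : K →* K) (s (π.symm i))) * g⁻¹ := by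
  induction s using Pi.mulSingle_induction with
  | one => simp [← Pi.one_def]
  | mul s s' e e' =>
    rw [map_mul, map_mul, e, e', show (fun i => Units.map (σ : K →* K) ((s * s') (π.symm i))) =
      (fun i => Units.map (σ : K →* K) (s (π.symm i))) *
        fun i => Units.map (σ : K →* K) (s' (π.symm i)) from funext fun i => map_mul _ _ _, map_mul]
    group
  | mulSingle i b =>
    rw [hΓ.hT_single, std_h hΓ h, ← hΓ.hT_single]
    congr 3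
    funext j
    by_cases e : j = π i
    · simp [e]
    · rw [Pi.mulSingle_eq_of_ne e, Pi.mulSingle_eq_of_ne fun e' => e (by simp [← e']), map_one]

theorem std_T {t : G} (ht : t ∈ Γ.T) : g⁻¹ * ψ t * g ∈ Γ.T := by
  obtain ⟨s, rfl⟩ := hΓ.exists_hT ht
  simpa [std_hT hΓ h, mul_assoc] using hΓ.hT_mem _

theorem std_co (hm : ∀ i, m (π i) = m i) (t : Kˣ) :
    ψ (co hΓ m t) = g * co hΓ m (Units.map (σ : K →* K) t) * g⁻¹ := by
  rw [co_eq, co_eq, std_hT hΓ h]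
  simp only [map_zpow, ← hm (π.symm _), Equiv.apply_symm_apply]

theorem std_x (hR : R.Ok) : ∀ γ ∈ R.Φ, ∃ d : Kˣ, ∀ u,
    ψ (Γ.x γ u) = g * Γ.x (pm π γ) (d * σ u) * g⁻¹ ∧
      ψ (Γ.x (-γ) u) = g * Γ.x (-pm π γ) ((d⁻¹ : Kˣ) * σ u) * g⁻¹ := by
  refine rt_ind hR (fun i => ⟨c i, fun u => pm_α (π := π) i ▸ h.2 i u⟩) fun i γ hγ ⟨d, e⟩ => ?_
  obtain ⟨a, h1⟩ := hΓ.rep_conj hR (RG.rep_n i) hγ
  obtain ⟨b, h2⟩ := hΓ.rep_conj hR ((RG.rep_n (π i)).T_mul (RG.h_mem (π i) (c i)))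
    (pm_mem hR h.1 γ hγ)
  rw [hR.sE_apply] at h1 h2
  refine ⟨b * d * Units.map (σ : K →* K) a⁻¹, fun u => ⟨?_, ?_⟩⟩
  · rw [pm_s h.1, show Γ.x (R.s i γ) u = Γ.x (R.s i γ) (a * ((a⁻¹ : Kˣ) * u)) by simp, ← (h1 _).1,
      map_mul, map_mul, map_inv, (e _).1, std_n hΓ h,
      show ((b * d * Units.map (σ : K →* K) a⁻¹ : Kˣ) : K) * σ u = b * (d * σ ((a⁻¹ : Kˣ) * u)) by
        simp [mul_assoc], ← (h2 _).1]
    group
  · rw [pm_s h.1, show Γ.x (-R.s i γ) u = Γ.x (-R.s i γ) ((a⁻¹ : Kˣ) * (a * u)) by simp,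
      ← (h1 _).2, map_mul, map_mul, map_inv, (e _).2, std_n hΓ h,
      show (((b * d * Units.map (σ : K →* K) a⁻¹)⁻¹ : Kˣ) : K) * σ u =
        (b⁻¹ : Kˣ) * ((d⁻¹ : Kˣ) * σ (a * u)) by simp [mul_assoc, mul_left_comm], ← (h2 _).2]
    group

theorem std_X (hR : R.Ok) {S S' : Set R.Q} (hS : ∀ γ ∈ S, γ ∈ R.Φ → pm π γ ∈ S') {v : G}
    (hv : v ∈ Γ.X S) : g⁻¹ * ψ v * g ∈ Γ.X S' := by
  refine hΓ.X_ind (P := fun v => g⁻¹ * ψ v * g ∈ Γ.X S') (by simp) (fun γ h1 h2 a => ?_)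
    (fun a _ b _ ha hb => by simpa [mul_assoc] using mul_mem ha hb) hv
  obtain ⟨d, e⟩ := std_x hΓ h hR γ h2
  simpa [(e a).1, mul_assoc] using RG.x_mem (pm_mem hR h.1 γ h2) (hS γ h1 h2) _

end Vale.Agent.P011UP
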