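import Vale.Agent.P011UP.H90

/-!
Stable parabolic subgroups have stable Levi subgroups; isotropy.
-/

set_option autoImplicit false
set_option linter.all false

namespace Vale.Agent.P011UP

open Matrix Subgroup Vale.Agent.P011L Vale.Agent.P183CH Vale.Agent.P183A Vale.Agent.P011U
  Vale.Agent.P011LD

variable {k K : Type} [Field k] [Field K] [Algebra k K]

theorem op_of_near {P : (K ≃ₐ[k] K) → Prop} (h : Near k P) : Op ⊤ P :=
  h.elim fun F h => haveI := h.1; Op.of_field F fun σ _ => h.2 σ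

theorem near_of_op [Algebra.IsAlgebraic k K] {P : (K ≃ₐ[k] K) → Prop} (h : Op ⊤ P) : Near k P :=
  h.elim fun S h => ⟨IntermediateField.adjoin k S, IntermediateField.finiteDimensional_adjoin
    fun x _ => Algebra.IsIntegral.isIntegral x, fun σ e =>
      h σ trivial fun x hx => e x (IntermediateField.subset_adjoin k _ hx)⟩

section

variable {n : Type} [Fintype n] [DecidableEq n] {H : Subgroup (GL n K)} (T : Tw k H)

theorem tw_sm (y : H) : Op ⊤ fun σ => T.a σ y = y :=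
  ((op_of_near T.cont).and (Op.mat ⊤ y.1.1)).imp fun σ _ e =>
    Subtype.ext (Units.ext ((e.1 y).trans e.2))

theorem pol_conj (a b : H) (f : H → H) (v : H → n × n → K)
    (h : ∀ i j, ∃ p : MvPolynomial (n × n) K, ∀ g, (f g).1.1 i j = MvPolynomial.eval (v g) p)
    (i j : n) :
    ∃ p : MvPolynomial (n × n) K, ∀ g, (a * f g * b).1.1 i j = MvPolynomial.eval (v g) p := by
  choose p hp using h
  refine ⟨∑ s, (∑ r, MvPolynomial.C (a.1.1 i r) * p r s) * MvPolynomial.C (b.1.1 s j), fun g => ?_⟩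
  simp only [map_sum, map_mul, MvPolynomial.eval_C, ← hp]
  rfl

theorem pol_cj (y : H) : Pol (MulAut.conj y) := fun i j =>
  (pol_conj y y⁻¹ (fun g => g) (fun g e => g.1.1 e.1 e.2) (fun i j => ⟨MvPolynomial.X (i, j),
    fun g => by rw [MvPolynomial.eval_X]⟩) i j).imp fun p hp g => by
      rw [MulAut.conj_apply, hp g]

theorem pol_cj' (y : H) : Pol (MulAut.conj y).symm := fun i j =>
  (pol_conj y⁻¹ y (fun g => g) (fun g e => g.1.1 e.1 e.2) (fun i j => ⟨MvPolynomial.X (i, j),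
    fun g => by rw [MvPolynomial.eval_X]⟩) i j).imp fun p hp g => by
      rw [MulAut.conj_symm_apply, hp g]

variable [Algebra.IsAlgebraic k K]

/-- the action conjugated by `y` -/
def cj (y : H) : Tw k H where
  a := (MulAut.conj (MulAut.conj y)⁻¹).toMonoidHom.comp T.a
  pol σ i j := (pol_conj (y⁻¹ * T.a σ y) (y⁻¹ * T.a σ y)⁻¹ _ _ (T.pol σ) i j).imp fun p hp g =>
    (congrArg (fun x : H => x.1.1 i j) (by simp [mul_assoc])).trans (hp g)
  cont := near_of_op (((op_of_near T.cont).and (tw_sm T y)).imp fun σ _ e g =>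
    (congrArg (fun x : H => x.1.1) (by simp [mul_assoc, e.2])).trans (e.1 g))

theorem cj_a (y : H) (σ : K ≃ₐ[k] K) (g : H) :
    (cj T y).a σ g = y⁻¹ * T.a σ (y * g * y⁻¹) * y := by simp [cj]

theorem eqv_cj (y : H) : Eqv T (cj T y) :=
  ⟨(MulAut.conj y).symm, pol_cj' y, pol_cj y, fun σ g => by simp [cj_a, mul_assoc]⟩

theorem eqv_cj' (y : H) : Eqv (cj T y) T :=
  ⟨MulAut.conj y, pol_cj y, pol_cj' y, fun σ g => by simp [cj_a, mul_assoc]⟩

end

section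

variable {R : RS} {G : Type} [Group G] {Γ : RG R K G} (hΓ : Γ.Ok) (hR : R.Ok)
  {F F' : Type} [FunLike F G G] [MonoidHomClass F G G] [FunLike F' K K]
  [RingHomClass F' K K] {ψ : F} {σ : F'} {g : G} {c : Fin R.r → Kˣ} {π : Equiv.Perm (Fin R.r)}
include hΓ

theorem GJ_split {J : Set (Fin R.r)} (hg : g ∈ Γ.GJ J) : ∃ l ∈ LJ Γ J, ∃ t ∈ Γ.T, l * t = g := by
  rw [RG.GJ, sup_comm] at hg
  exact (hΓ.nm_T_X _).mem_sup'.1 hg

include hR

/-- torus elements are absorbed by the diagonal automorphism -/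
theorem std_abs {t : G} (ht : t ∈ Γ.T) (h : Std Γ ψ σ (g * t) c π) :
    Std Γ ψ σ g (fun i => hΓ.chi (R.α (π i)) t * c i) π := ⟨h.1, fun i u => ⟨by
  rw [(h.2 i u).1, Units.val_mul, mul_assoc (_ : K), ← hΓ.tx ht (hR.simple _)]
  group, by
  rw [(h.2 i u).2, mul_inv, Units.val_mul, mul_assoc (_ : K), ← hΓ.chi_neg,
    ← hΓ.tx ht (hR.neg_mem (hR.simple _))]
  group⟩⟩

theorem std_lam {m : Fin R.r → ℤ} {J : Set (Fin R.r)} (hm : Dom m J) (h : Std Γ ψ σ g c π)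
    (hg : g ∈ PJ Γ J) (hπ : ∀ i, m (π i) = m i) : ∃ u ∈ RJ Γ m 1, ∀ t,
      ψ (co hΓ m t) = u * co hΓ m (Units.map (σ : K →* K) t) * u⁻¹ := by
  obtain ⟨u, hu, l, hl, rfl⟩ := (mem_PJ hΓ hR hm).1 hg
  refine ⟨u, hu, fun t => ?_⟩
  rw [std_co hΓ h hπ, mul_assoc u l,
    ← mul_inv_eq_iff_eq_mul.1 (co_GJ hΓ hm hl (Units.map (σ : K →* K) t))]
  group

end

variable {D : Chev} {T : Tw k (D.grp K)} {J : Set (Fin D.R.r)}

/-- An action which preserves `P_J` and for which the cocharacter of `J` is equivariant. -/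
theorem par_of [Infinite K] {g c π} (h : NF T g c π) {m : Fin D.R.r → ℤ} (hm : Dom m J)
    (hπ : ∀ π, Dg D.R π → (∀ i, π i ∈ J ↔ i ∈ J) → ∀ i, m (π i) = m i)
    (hp : ∀ σ, ∀ p ∈ PJ (GG D K) J, T.a σ p ∈ PJ (GG D K) J)
    (hl : ∀ σ t, T.a σ (co GG_ok m t) = co GG_ok m (Units.map (σ : K →* K) t)) : Par T J := by
  classical
  have hR := Chev.R_ok D
  obtain ⟨t, ht⟩ := exists_gen (K := K) m
  have h1 := fun σ => std_PJ GG_ok hR (h.1 σ) σ.surjective (hp σ)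
  have h2 : ∀ x, ∃ l, (x ∈ (GG D K).GJ J → l ∈ LJ (GG D K) J ∧ l⁻¹ * x ∈ (GG D K).T) ∧
      (x = 1 → l = 1) := fun x => by
    by_cases e : x = 1
    · exact ⟨1, fun _ => ⟨one_mem _, by simpa [e] using one_mem _⟩, fun _ => rfl⟩
    by_cases e' : x ∈ (GG D K).GJ J
    · obtain ⟨l, hl, t, ht, rfl⟩ := GJ_split GG_ok e'
      exact ⟨l, fun _ => ⟨hl, by simpa using ht⟩, fun c => absurd c e⟩
    · exact ⟨1, fun c => absurd c e', fun _ => rfl⟩
  choose d d1 d2 using h2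
  have h3 : ∀ σ, g σ ∈ (GG D K).GJ J := fun σ => cent_PJ GG_ok hR hm ht (h1 σ).1 (by
    have := std_co GG_ok (h.1 σ) (hπ _ (h.1 σ).1 (h1 σ).2) (Units.map (σ.symm : K →* K) t)
    rw [hl, show Units.map (σ : K →* K) (Units.map (σ.symm : K →* K) t) = t from
      Units.ext (σ.apply_symm_apply _)] at this
    rw [mul_inv_eq_iff_eq_mul, eq_mul_inv_iff_mul_eq.1 this])
  refine ⟨fun σ => d (g σ), _, π, ⟨fun σ => std_abs GG_ok hR (d1 _ (h3 σ)).2
    ((mul_inv_cancel_left (d (g σ)) (g σ)).symm ▸ h.1 σ), d2 _ h.2.1, h.2.2.imp fun F e =>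
      ⟨e.1, fun τ hτ σ => ⟨congrArg d (e.2 τ hτ σ).1, congrArg d (e.2 τ hτ σ).2⟩⟩⟩,
    fun σ => ⟨(d1 _ (h3 σ)).1, (h1 σ).2⟩⟩

theorem pa_of [Infinite K] {g c π} (h : NF T g c π) {m : Fin D.R.r → ℤ} (hm : Dom m J)
    (hπ : ∀ π, Dg D.R π → (∀ i, π i ∈ J ↔ i ∈ J) → ∀ i, m (π i) = m i)
    (hp : ∀ σ, ∀ p ∈ PJ (GG D K) J, T.a σ p ∈ PJ (GG D K) J) : PA GG_ok m ⊤ T.a :=
  have h := h.1
  have h1 := fun σ => std_PJ GG_ok (Chev.R_ok D) (h σ) σ.surjective (hp σ)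
  ⟨fun σ _ τ _ => map_mul T.a σ τ, tw_sm T, fun σ _ _ hl _ =>
    std_RJ GG_ok (Chev.R_ok D) hm (h σ) (h1 σ).1 (hπ _ (h σ).1 (h1 σ).2) hl, fun σ _ =>
    std_lam GG_ok (Chev.R_ok D) hm (h σ) (h1 σ).1 (hπ _ (h σ).1 (h1 σ).2)⟩

/-- The cocharacter of a stable Levi subgroup is equivariant. -/
theorem par_co (h : Par T J) {m : Fin D.R.r → ℤ} (hm : Dom m J)
    (hπ : ∀ π, Dg D.R π → (∀ i, π i ∈ J ↔ i ∈ J) → ∀ i, m (π i) = m i) (σ : K ≃ₐ[k] K) (t : Kˣ) :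
    T.a σ (co GG_ok m t) = co GG_ok m (Units.map (σ : K →* K) t) := by
  obtain ⟨g, c, π, h, h1⟩ := h
  rw [std_co GG_ok (h.1 σ) (hπ _ (h.1 σ).1 (h1 σ).2), mul_inv_eq_iff_eq_mul]
  exact (mul_inv_eq_iff_eq_mul.1 (co_GJ GG_ok hm (mem_sup_left (h1 σ).1) _)).symm

theorem co_val (m : Fin D.R.r → ℤ) (t : Kˣ) : (co (GG_ok (D := D) (k := K)) m t).1.1 =
    diagonal fun a => (t ^ ∑ i, m i * D.μ i a).1 := by
  rw [co_eq, hT_val]
  simp only [← _root_.zpow_mul, prod_zpow]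

/-- An equivariant conjugate of a noncentral cocharacter gives isotropy. -/
theorem not_ani [Infinite K] {m : Fin D.R.r → ℤ} {γ : D.R.Q} (hγ : γ ∈ D.R.Φ) (h0 : pw m γ ≠ 0)
    (y : D.grp K) (h : ∀ σ t, T.a σ (y * co GG_ok m t * y⁻¹) =
      y * co GG_ok m (Units.map (σ : K →* K) t) * y⁻¹) : ¬T.Ani := fun an => by
  have h1 := an y.1 (fun a => ∑ i, m i * D.μ i a) (fun t => y * co GG_ok m t * y⁻¹) (fun t => by
    rw [← co_val]
    exact congrArg (fun x : D.grp K => x.1.1) (inv_mul_cancel_right (y * co GG_ok m t) y)) h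
  obtain ⟨t, ht⟩ := exists_gen (K := K) m
  have h2 : co (GG_ok (D := D) (k := K)) m t = 1 := Subtype.ext (Units.ext (by
    rw [co_val]
    simp only [fun a => congrFun h1 a, Pi.zero_apply, zpow_zero, Units.val_one, diagonal_one]
    rfl))
  have h3 := co_x (GG_ok (D := D) (k := K)) (m := m) hγ t 1
  rw [h2, one_mul, inv_one, mul_one, mul_one] at h3
  exact ht γ hγ h0 (Units.ext (GG_ok.x_inj (Chev.R_ok D) hγ h3).symm)

theorem par_iso [Infinite K] (h : Par T J) (hJ : J ≠ Set.univ) : ¬T.Ani := by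
  obtain ⟨m, hm, hπ⟩ := exists_dom (Chev.R_ok D) J
  obtain ⟨i, hi⟩ := (Set.ne_univ_iff_exists_notMem J).1 hJ
  exact not_ani ((Chev.R_ok D).simple i) (hm.2 i hi).ne' 1 fun σ t => by
    simpa using par_co h hm hπ σ t

theorem par_PJ (h : Par T J) (σ : K ≃ₐ[k] K) {p : D.grp K} (hp : p ∈ PJ (GG D K) J) :
    T.a σ p ∈ PJ (GG D K) J := by
  obtain ⟨g, c, π, h, h1⟩ := h
  have h2 : g σ ∈ PJ (GG D K) J := GJ_le_PJ (mem_sup_left (h1 σ).1)
  have h3 : (g σ)⁻¹ * T.a σ p * g σ ∈ PJ (GG D K) J :=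
    (sup_le (sup_le (fun v hv => GJ_le_PJ (mem_sup_left (std_X GG_ok (h.1 σ) (Chev.R_ok D)
      (fun γ e _ => pm_In (h1 σ).2 e) hv))) fun t ht => GJ_le_PJ (mem_sup_right
        (std_T GG_ok (h.1 σ) ht))) fun v hv => U_le_PJ (std_X GG_ok (h.1 σ) (Chev.R_ok D)
          (fun γ e _ => pm_nonneg e) hv) : _ ≤ (PJ (GG D K) J).comap
      ((MulAut.conj (g σ)).symm.toMonoidHom.comp (T.a σ).toMonoidHom)) hp
  simpa [mul_assoc] using mul_mem (mul_mem h2 h3) (inv_mem h2)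

theorem par_fix (h : Par T J) : FixP T J := ⟨1, fun σ p hp => by simpa using par_PJ h σ hp⟩

/-- A stable parabolic subgroup has a stable Levi subgroup, with an explicit conjugation. -/
theorem lev' (nfx : NFX) : AllI fun k K _ _ _ D T => ∀ [Algebra.IsAlgebraic k K] J
    (y : D.grp K), (∀ σ, ∀ p ∈ PJ (GG D K) J, (cj T y).a σ p ∈ PJ (GG D K) J) →
      ∃ u ∈ (GG D K).U, Par (cj T (y * u)) J := by
  intro k K _ _ _ _ _ D hD T _ J y hy
  have := Infinite.of_injective _ (algebraMap k K).injective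
  obtain ⟨m, hm, hπ⟩ := exists_dom (Chev.R_ok D) J
  obtain ⟨g, c, π, h⟩ := nfx k K D hD (cj T y)
  obtain ⟨u, hu, h1⟩ := (pa_of h hm hπ hy).levi (Chev.R_ok D) hm
  obtain ⟨g', c', π', h'⟩ := nfx k K D hD (cj T (y * u))
  have h2 : ∀ σ x, (cj T (y * u)).a σ x = u⁻¹ * (cj T y).a σ (u * x * u⁻¹) * u := fun σ x => by
    simp only [cj_a, _root_.mul_inv_rev, mul_assoc]
  have h3 : u ∈ PJ (GG D K) J := U_le_PJ (RJ_le_U hu)
  exact ⟨u, RJ_le_U hu, par_of h' hm hπ (fun σ p hp => h2 σ p ▸ mul_mem (mul_mem (inv_mem h3)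
    (hy σ _ (mul_mem (mul_mem h3 hp) (inv_mem h3)))) h3) fun σ t => by
      rw [h2, h1 σ trivial]
      group⟩

theorem lev (nfx : NFX) : LEV := by
  intro k K _ _ _ _ _ D hD T J ⟨y, hy⟩
  obtain ⟨u, -, h⟩ := lev' nfx k K D hD T J y fun σ p hp => cj_a T y σ p ▸ hy σ p hp
  exact ⟨_, eqv_cj T _, h⟩

/-- The easy half of `PARX`. -/
theorem iso_of_fix (nfx : NFX) : AllI fun _ _ _ _ _ _ T => ∀ J, J ≠ Set.univ → FixP T J →
    ¬T.Ani := by
  intro k K _ _ _ _ _ D hD T J hJ ⟨y, hy⟩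
  have := Infinite.of_injective _ (algebraMap k K).injective
  obtain ⟨u, -, h⟩ := lev' nfx k K D hD T J y fun σ p hp => cj_a T y σ p ▸ hy σ p hp
  obtain ⟨m, hm, hπ⟩ := exists_dom (Chev.R_ok D) J
  obtain ⟨i, hi⟩ := (Set.ne_univ_iff_exists_notMem J).1 hJ
  refine not_ani ((Chev.R_ok D).simple i) (hm.2 i hi).ne' (y * u) fun σ t => ?_
  rw [← par_co h hm hπ σ t, cj_a]
  group

end Vale.Agent.P011UP
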