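import Vale.Agent.P011UP.Std

/-!
Standard parabolic subgroups: the unipotent radical, its filtration, the Levi decomposition.
-/

set_option autoImplicit false
set_option linter.all false

namespace Vale.Agent.P011UP

open Matrix Subgroup Vale.Agent.P011L Vale.Agent.P183CH Vale.Agent.P183A Vale.Agent.P011U

variable {R : RS} {K G : Type} [Field K] [Group G] {Γ : RG R K G}
  {π : Equiv.Perm (Fin R.r)} {m : Fin R.r → ℤ} {J : Set (Fin R.r)} {γ δ : R.Q} {l : ℕ}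
  {g p u v : G}

/-- the positive roots of level at least `l` -/
def Lv (m : Fin R.r → ℤ) (l : ℕ) : Set R.Q := {γ | γ ∈ R.Pos ∧ (l : ℤ) ≤ pw m γ}

variable (Γ) in
/-- the filtration of the unipotent radical -/
def RJ (m : Fin R.r → ℤ) (l : ℕ) : Subgroup G := Γ.X (Lv m l)

theorem Lv_sub : Lv m l ⊆ R.Pos := fun _ h => h.1

theorem RJ_mono {l' : ℕ} (h : l ≤ l') : RJ Γ m l' ≤ RJ Γ m l :=
  RG.X_mono fun _ e _ => ⟨e.1, (Int.ofNat_le.2 h).trans e.2⟩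

theorem RJ_le_U : RJ Γ m l ≤ Γ.U := RG.X_le_U Lv_sub

theorem GJ_le_PJ : Γ.GJ J ≤ PJ Γ J := le_sup_left

theorem U_le_PJ : Γ.U ≤ PJ Γ J := le_sup_right

theorem RJ_top (m : Fin R.r → ℤ) : ∃ M : ℕ, ∀ v ∈ RJ Γ m M, v = 1 := by
  obtain ⟨M, hM⟩ := (R.Φ.finite_toSet.image (pw m)).bddAbove
  refine ⟨M.toNat + 1, fun v hv => mem_bot.1 ((RG.X_le fun γ h1 h2 => ?_ : _ ≤ ⊥) hv)⟩
  have h3 := hM ⟨γ, h2, rfl⟩
  have h4 := h1.2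
  have := Int.self_le_toNat M
  omega

theorem Dom.br (hm : Dom m J) {a b : ℕ} : R.Br (Lv m a) (Lv m b) (Lv m (a + b)) := by
  intro γ hγ δ hδ i j hi hj e
  refine ⟨⟨e, RS.comb_nonneg hγ.1.2 hδ.1.2 i j⟩, ?_⟩
  have h1 := hγ.2
  have h2 := hδ.2
  have h3 := hm.nonneg hγ.1.2
  have h4 := hm.nonneg hδ.1.2
  rw [pw_add, pw_nsmul, pw_nsmul]
  push_cast
  nlinarith

theorem Dom.br' (hm : Dom m J) {a b c : ℕ} (h : c ≤ a + b) : R.Br (Lv m a) (Lv m b) (Lv m c) :=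
  fun γ hγ δ hδ i j hi hj e =>
    ⟨(hm.br γ hγ δ hδ i j hi hj e).1, (Int.ofNat_le.2 h).trans (hm.br γ hγ δ hδ i j hi hj e).2⟩

theorem Dom.cl (hm : Dom m J) (l : ℕ) : R.Cl (Lv m l) := ⟨Lv_sub, hm.br' (by omega)⟩

theorem Dom.RJ_zero (hm : Dom m J) : RJ Γ m 0 = Γ.U :=
  RJ_le_U.antisymm (RG.X_mono fun γ h e => ⟨⟨e, h⟩, hm.nonneg h⟩)

theorem exists_gen [Infinite K] (m : Fin R.r → ℤ) :
    ∃ t : Kˣ, ∀ γ ∈ R.Φ, pw m γ ≠ 0 → t ^ pw m γ ≠ 1 := by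
  classical
  let N : ℤ := ∏ γ ∈ R.Φ.filter (pw m · ≠ 0), pw m γ
  have h1 : 0 < N.natAbs :=
    Int.natAbs_pos.2 (Finset.prod_ne_zero_iff.2 fun γ h => (Finset.mem_filter.1 h).2)
  obtain ⟨t, ht⟩ := Infinite.exists_notMem_finset
    (insert 0 (Polynomial.nthRootsFinset N.natAbs (1 : K)))
  rw [Finset.mem_insert, not_or, Polynomial.mem_nthRootsFinset h1] at ht
  refine ⟨Units.mk0 t ht.1, fun γ hγ e e' => ht.2 ?_⟩
  obtain ⟨b, hb⟩ : pw m γ ∣ N := Finset.dvd_prod_of_mem _ (Finset.mem_filter.2 ⟨hγ, e⟩)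
  have h2 : Units.mk0 t ht.1 ^ N.natAbs = 1 :=
    pow_natAbs_eq_one.2 ((congrArg (Units.mk0 t ht.1 ^ ·) hb).trans
      (by rw [_root_.zpow_mul, e', _root_.one_zpow]))
  simpa using congrArg Units.val h2

variable (hΓ : Γ.Ok)
include hΓ

theorem co_P {s : List R.Q} (hs : ∀ γ ∈ s, γ ∈ R.Φ) (c : R.Q → K) (t : Kˣ) :
    co hΓ m t * Γ.P s c * (co hΓ m t)⁻¹ = Γ.P s fun γ => (t ^ pw m γ : Kˣ) * c γ := by
  induction s with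
  | nil => simp [RG.P_nil]
  | cons γ s ih =>
    rw [RG.P_cons, RG.P_cons, ← ih fun δ h => hs δ (List.mem_cons_of_mem _ h),
      ← co_x hΓ (hs γ List.mem_cons_self)]
    group

variable (hR : R.Ok) (hm : Dom m J)
include hm

theorem co_GJ (hg : g ∈ Γ.GJ J) (t : Kˣ) : co hΓ m t * g * (co hΓ m t)⁻¹ = g := by
  refine mul_inv_eq_iff_eq_mul.2 (mem_centralizer_singleton_iff.1
    ((sup_le (RG.X_le fun γ h1 h2 a => ?_) fun t' h => ?_ : _ ≤ centralizer {co hΓ m t}) hg)).symm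
  · refine mem_centralizer_singleton_iff.2 (mul_inv_eq_iff_eq_mul.1 ?_).symm
    simp [co_x hΓ h2, hm.zero h1]
  · exact mem_centralizer_singleton_iff.2 (hΓ.T_comm h (co_mem hΓ t))

include hR

theorem comm_RJ {a b : ℕ} (hu : u ∈ RJ Γ m a) (hv : v ∈ RJ Γ m b) :
    u * v * u⁻¹ * v⁻¹ ∈ RJ Γ m (a + b) :=
  hΓ.comm_X hR Lv_sub Lv_sub Lv_sub hm.br (hm.br' (by omega)) (hm.br' (by omega))
    (commutator_mem_commutator hu hv)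

theorem nm_U : Nm Γ.U (RJ Γ m l) :=
  hm.RJ_zero (Γ := Γ) ▸ hΓ.nm_X hR Lv_sub Lv_sub (hm.br' (by omega))

theorem nm_GJ (hl : 0 < l) : Nm (Γ.GJ J) (RJ Γ m l) := fun g hg v hv => by
  obtain ⟨a, ha, n, hn, b, hb, rfl⟩ := hΓ.bruhat0 hR hg
  obtain ⟨w, hw, h⟩ := RG.exists_rep hn
  have := nm_U hΓ hR hm a (RG.UJ_le J ha) _ (hΓ.rep_X hR h (S' := Lv m l) (fun γ e _ =>
    ⟨hR.pos_of_not_In hw e.1 fun c => by
      have h1 := e.2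
      rw [hm.zero c] at h1
      omega, (hm.wj hR hw γ).symm ▸ e.2⟩) (nm_U hΓ hR hm b (RG.UJ_le J hb) v hv))
  simpa [mul_assoc] using this

theorem nm_PJ (hl : 0 < l) : Nm (PJ Γ J) (RJ Γ m l) := (nm_GJ hΓ hR hm hl).sup_left (nm_U hΓ hR hm)

theorem mem_PJ : p ∈ PJ Γ J ↔ ∃ u ∈ RJ Γ m 1, ∃ g ∈ Γ.GJ J, u * g = p := by
  rw [← (nm_GJ hΓ hR hm one_pos).mem_sup']
  refine ⟨fun h => (sup_le le_sup_left (RG.X_le fun γ h1 h2 a => ?_) : PJ Γ J ≤ _) h,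
    fun h => (sup_le GJ_le_PJ (RJ_le_U.trans U_le_PJ) : _ ≤ PJ Γ J) h⟩
  rcases le_or_gt (pw m γ) 0 with e | e
  · exact mem_sup_left (mem_sup_left (RG.x_mem h2 (hm.In h1 e) a))
  · exact mem_sup_right (RG.x_mem (S := Lv m 1) h2 ⟨⟨h2, h1⟩, e⟩ a)

theorem cent_RJ {t : Kˣ} (ht : ∀ γ ∈ R.Φ, pw m γ ≠ 0 → t ^ pw m γ ≠ 1) (hu : u ∈ RJ Γ m 1)
    (h : co hΓ m t * u * (co hΓ m t)⁻¹ = u) : u = 1 := by
  obtain ⟨s, h1, h2⟩ := RS.exists_list (Lv_sub (m := m) (l := 1))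
  obtain ⟨c, rfl⟩ := hΓ.exists_P hR (hm.cl 1) h1 h2 hu
  have h3 : ∀ γ ∈ s, γ ∈ R.Pos := fun γ e => ((h2 γ).1 e).1
  rw [co_P hΓ fun γ e => (h3 γ e).1] at h
  refine hΓ.P_zero (fun γ e => (h3 γ e).1) fun γ e => by_contra fun e' => ht γ (h3 γ e).1 ?_
    (Units.ext ((mul_left_eq_self₀.1 (hΓ.P_inj hR h1 h3 h γ e)).resolve_right e'))
  have := ((h2 γ).1 e).2
  omega

theorem cent_PJ {t : Kˣ} (ht : ∀ γ ∈ R.Φ, pw m γ ≠ 0 → t ^ pw m γ ≠ 1) (hp : p ∈ PJ Γ J)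
    (h : co hΓ m t * p * (co hΓ m t)⁻¹ = p) : p ∈ Γ.GJ J := by
  obtain ⟨u, hu, g, hg, rfl⟩ := (mem_PJ hΓ hR hm).1 hp
  rw [cent_RJ hΓ hR hm ht hu (mul_right_cancel (b := g) (by
    rw [← h, ← co_GJ hΓ hm hg t]
    simp only [co_GJ hΓ hm hg t]
    conv_lhs => rw [← co_GJ hΓ hm hg t]
    group)), one_mul]
  exact hg

omit hm in
theorem In_of_mem [Infinite K] (hδ : δ ∈ R.Φ) (h0 : δ ≤ 0) {a : K} (ha : a ≠ 0)
    (h : Γ.x δ a ∈ PJ Γ J) : R.In J δ := by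
  obtain ⟨m, hm, -⟩ := exists_dom hR J
  obtain ⟨t, ht⟩ := exists_gen (K := K) m
  obtain ⟨u, hu, g, hg, e⟩ := (mem_PJ hΓ hR hm).1 h
  have h1 : co hΓ m t * Γ.x δ a * (co hΓ m t)⁻¹ * (Γ.x δ a)⁻¹ =
      co hΓ m t * u * (co hΓ m t)⁻¹ * u⁻¹ := by
    rw [← e, show co hΓ m t * (u * g) * (co hΓ m t)⁻¹ = co hΓ m t * u * (co hΓ m t)⁻¹ *
      (co hΓ m t * g * (co hΓ m t)⁻¹) by group, co_GJ hΓ hm hg]
    group
  have h2 := hΓ.U_inf_V (h1 ▸ RJ_le_U (mul_mem (hΓ.nm_T_X _ _ (co_mem hΓ t) u hu) (inv_mem hu)))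
    (mul_mem (hΓ.nm_T_X _ _ (co_mem hΓ t) _ (RG.x_mem hδ h0 a)) (inv_mem (RG.x_mem hδ h0 a)))
  rw [mul_inv_eq_one, co_x hΓ hδ] at h2
  have h3 : pw m δ = 0 := by_contra fun e' =>
    ht δ hδ e' (Units.ext ((mul_left_eq_self₀.1 (hΓ.x_inj hR hδ h2)).resolve_right ha))
  simpa using (hm.In (neg_nonneg.2 h0) (by rw [pw_neg, h3, neg_zero])).neg

omit hm in
theorem mem_of_conj [Infinite K] (h : ∀ u ∈ Γ.U, g * u * g⁻¹ ∈ PJ Γ J) : g ∈ PJ Γ J := by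
  obtain ⟨a, ha, n, w, hn, b, hb, rfl⟩ := hΓ.bruhat hR g
  have hb' := RG.X_le_U (RS.cl_Inv w).1 hb
  refine mul_mem (mul_mem (U_le_PJ ha) (GJ_le_PJ (hΓ.NJ_le hR (hΓ.rep_NJ hR hn ?_)))) (U_le_PJ hb')
  refine inv_mem_iff.1 (hR.mem_WJ_of_Inv (inv_mem hn.mem_W) fun γ hγ => ⟨hγ.1, hγ.2.1, ?_⟩)
  have h1 := hR.neg_mem (hR.map_mem (inv_mem hn.mem_W) hγ.1)
  obtain ⟨c, hc⟩ := hΓ.rep_conj hR hn h1
  have h2 := h _ (mul_mem (mul_mem (inv_mem hb') (RG.x_mem h1 (neg_nonneg.2 hγ.2.2) 1)) hb')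
  have h3 := mul_mem (mul_mem (U_le_PJ (inv_mem ha)) h2) (U_le_PJ ha)
  rw [show a⁻¹ * (a * n * b * (b⁻¹ * Γ.x (-w⁻¹ γ) 1 * b) * (a * n * b)⁻¹) * a =
    n * Γ.x (-w⁻¹ γ) 1 * n⁻¹ by group, (hc 1).1, map_neg, RS.app_inv] at h3
  simpa using (In_of_mem hΓ hR (hR.neg_mem hγ.1) (neg_nonpos.2 hγ.2.1) (by simp) h3).neg

variable {F F' : Type} [FunLike F G G] [MonoidHomClass F G G] [FunLike F' K K]
  [RingHomClass F' K K] {ψ : F} {σ : F'} {c : Fin R.r → Kˣ} (h : Std Γ ψ σ g c π)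
include h

omit hm in
theorem std_PJ [Infinite K] (hσ : Function.Surjective σ) (hp : ∀ p ∈ PJ Γ J, ψ p ∈ PJ Γ J) :
    g ∈ PJ Γ J ∧ ∀ i, π i ∈ J ↔ i ∈ J := by
  have h1 : g ∈ PJ Γ J := mem_of_conj hΓ hR fun u hu => RG.conj_le rfl (by
    rintro _ ⟨γ, h1, h2, a, rfl⟩
    have h3 := pm_mem hR (π := π.symm) (fun i j => by simpa using (h.1 (π.symm i) (π.symm j)).symm)
      γ h2
    obtain ⟨d, e⟩ := std_x hΓ h hR _ h3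
    obtain ⟨b, hb⟩ := hσ ((d⁻¹ : Kˣ) * a)
    have h4 := hp _ (U_le_PJ (RG.x_mem h3 (pm_nonneg h1) b))
    rwa [(e b).1, hb, Units.mul_inv_cancel_left,
      show pm π (pm π.symm γ) = γ from funext fun i => by simp [pm]] at h4) hu
  have h2 : Set.MapsTo π J J := fun j hj => by
    have h3 := hp _ (GJ_le_PJ (mem_sup_left
      (RG.x_mem (hR.neg_mem (hR.simple j)) (RS.In_α hj).neg 1)))
    have h4 := mul_mem (mul_mem (inv_mem h1) h3) h1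
    rw [(h.2 j 1).2] at h4
    refine RS.mem_of_In (R := R) ?_
    simpa using (In_of_mem hΓ hR (hR.neg_mem (hR.simple (π j))) (neg_nonpos.2 (RS.α_nonneg _))
      (a := ((c j)⁻¹ : Kˣ) * σ 1) (by simp) (by simpa [mul_assoc] using h4)).neg
  exact ⟨h1, fun i => ⟨fun e => by simpa using Equiv.Perm.perm_symm_mapsTo_of_mapsTo π h2 e, fun e => h2 e⟩⟩

theorem std_RJ (hg : g ∈ PJ Γ J) (hπ : ∀ i, m (π i) = m i) (hl : 0 < l) (hv : v ∈ RJ Γ m l) :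
    ψ v ∈ RJ Γ m l := by
  simpa [mul_assoc] using nm_PJ hΓ hR hm hl g hg _ (std_X hΓ h hR (S' := Lv m l) (fun γ e e' =>
    ⟨⟨pm_mem hR h.1 γ e', pm_nonneg e.1.2⟩, (pw_pm h.1 hπ γ).symm ▸ e.2⟩) hv)

end Vale.Agent.P011UP
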