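import Vale.Agent.P011UP.Par
import Vale.Agent.P011LD.H90

/-!
Unipotent descent: the cohomology of the unipotent radical vanishes.
-/

set_option autoImplicit false
set_option linter.all false

namespace Vale.Agent.P011UP

open Matrix Subgroup Vale.Agent.P011L Vale.Agent.P183CH Vale.Agent.P183A Vale.Agent.P011U
  Vale.Agent.P011LD

variable {k K : Type} [Field k] [Infinite k] [Field K] [Algebra k K] [Algebra.IsAlgebraic k K]
  {P : Subgroup (K ≃ₐ[k] K)}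

omit [Algebra.IsAlgebraic k K] in
theorem eq_of_pow {d : ℕ} (hd : 0 < d) {x y : K}
    (h : ∀ a : k, (x + algebraMap k K a) ^ d = (y + algebraMap k K a) ^ d) : x = y := by
  have h1 : (Polynomial.C x + Polynomial.X) ^ d = (Polynomial.C y + Polynomial.X) ^ d :=
    Polynomial.eq_of_infinite_eval_eq _ _ ((Set.infinite_range_of_injective
      (algebraMap k K).injective).mono (by rintro _ ⟨a, rfl⟩; simpa using h a))
  have h2 := congrArg (Polynomial.eval (-y)) h1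
  simpa [hd.ne', add_neg_eq_zero] using h2

/-- a finite set of representatives and an element of trace one in the ring of the `d`-th powers -/
theorem exists_tr (S : Finset K) {d : ℕ} (hd : 0 < d) (A : Subring K) (hA : ∀ x : K, x ^ d ∈ A) :
    ∃ (ι : Type) (_ : Fintype ι) (r : ι → P) (s : K), s ∈ A ∧ ∑ i, (r i).1 s = 1 ∧
      ∀ σ : P, ∃ e : ι ≃ ι, ∀ i, ∃ n : P, (∀ x ∈ S, n.1 x = x) ∧ n.1 s = s ∧
        r (e i) = σ * r i * n := by
  classical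
  let N : Subgroup P :=
    { carrier := {σ | ∀ x ∈ S, σ.1 x = x}
      mul_mem' := fun {σ τ} hσ hτ x hx => by
        show σ.1 (τ.1 x) = x
        rw [hτ x hx, hσ x hx]
      one_mem' := fun _ _ => rfl
      inv_mem' := fun {σ} hσ x hx => σ.1.injective (by
        rw [hσ x hx]; exact σ.1.apply_symm_apply x) }
  have hq : ∀ q q' : P ⧸ N, (∀ x ∈ S, q.out.1 x = q'.out.1 x) → q = q' := fun q q' e => by
    rw [← q.out_eq', ← q'.out_eq', QuotientGroup.eq]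
    exact fun x hx => q.out.1.injective ((q.out.1.apply_symm_apply _).trans (e x hx).symm)
  have : Finite (P ⧸ N) := Finite.of_injective
    (fun q => fun x : S => (⟨q.out.1 x, by
      rw [Polynomial.mem_rootSet, Polynomial.aeval_algHom_apply q.out.1, minpoly.aeval, map_zero]
      exact ⟨minpoly.ne_zero (Algebra.IsIntegral.isIntegral _), rfl⟩⟩ :
        (minpoly k x.1).rootSet K)) fun q q' e =>
    hq q q' fun x hx => congrArg Subtype.val (congrFun e ⟨x, hx⟩)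
  have := Fintype.ofFinite (P ⧸ N)
  let F : Submonoid K :=
    { carrier := {c | ∀ σ ∈ N, σ.1 c = c}
      mul_mem' := fun hc hd σ s => by rw [map_mul, hc σ s, hd σ s]
      one_mem' := fun σ _ => map_one _ }
  have he : ∀ σ : P, ∀ q : P ⧸ N, ∃ n ∈ N, (MulAction.toPerm σ q).out = σ * q.out * n :=
    fun σ q => by
      obtain ⟨n, e⟩ := QuotientGroup.mk_out_eq_mul N (σ * q.out)
      exact ⟨n, n.2, by rw [← e, MulAction.toPerm_apply, ← MulAction.Quotient.mk_smul_out]; rfl⟩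
  obtain ⟨x, hx, h0⟩ : ∃ x ∈ F, ∑ q : P ⧸ N, q.out.1 x ^ d ≠ 0 := by
    by_contra c
    push Not at c
    exact one_ne_zero (linearIndependent_iff'.1 ((linearIndependent_monoidHom F K).comp
      (fun q : P ⧸ N => (powMonoidHom d).comp ((q.out.1 : K →* K).comp F.subtype)) fun i j e =>
        hq i j fun x hx => eq_of_pow (k := k) hd fun a => by
          simpa using DFunLike.congr_fun e ⟨x + algebraMap k K a, fun σ s => by
            rw [map_add, s x hx, AlgEquiv.commutes]⟩) Finset.univ (fun _ => (1 : K))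
      (funext fun x => by simpa [Finset.sum_apply] using c x.1 x.2) ((1 : P) : P ⧸ N)
      (Finset.mem_univ _))
  have hz : ∀ σ : P, σ.1 (∑ q : P ⧸ N, q.out.1 x ^ d) = ∑ q : P ⧸ N, q.out.1 x ^ d := fun σ => by
    rw [map_sum, ← Equiv.sum_comp (MulAction.toPerm σ) fun q : P ⧸ N => q.out.1 x ^ d]
    refine Finset.sum_congr rfl fun q _ => ?_
    obtain ⟨n, h1, h2⟩ := he σ q
    rw [h2, map_pow]
    exact congrArg (fun y => σ.1 (q.out.1 y) ^ d) (hx n h1).symm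
  have hm : ∑ q : P ⧸ N, q.out.1 x ^ d ∈ A := sum_mem fun q _ => hA _
  generalize hz' : ∑ q : P ⧸ N, q.out.1 x ^ d = z at h0 hz hm
  refine ⟨P ⧸ N, this, fun q => q.out, x ^ d * z⁻¹, mul_mem (hA x) ?_, ?_, fun σ =>
    ⟨MulAction.toPerm σ, fun q => (he σ q).imp fun n h => ⟨h.1, ?_, h.2⟩⟩⟩
  · obtain ⟨d, rfl⟩ := Nat.exists_eq_succ_of_ne_zero hd.ne'
    rw [show z⁻¹ = z ^ d * z⁻¹ ^ (d + 1) by
      rw [pow_succ, ← mul_assoc, ← mul_pow, mul_inv_cancel₀ h0, one_pow, one_mul]]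
    exact mul_mem (pow_mem hm d) (hA _)
  · simp only [map_mul, map_inv₀, hz, map_pow]
    rw [← Finset.sum_mul, hz', mul_inv_cancel₀ h0]
  · rw [map_mul, map_inv₀, hz, map_pow, hx n h.1]

/-- the additive Hilbert 90 when only the `d`-th powers are known to act semilinearly -/
theorem h90_add {Q : Type} [CommGroup Q] (A : (K ≃ₐ[k] K) → Q →* Q) (Sc : K → (Q →* Q) → Prop)
    (uq : ∀ s M M', Sc s M → Sc s M' → M = M') (s1 : Sc 1 (MonoidHom.id Q))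
    (sa : ∀ s s' M M', Sc s M → Sc s' M' → Sc (s + s') (M * M'))
    (sn : ∀ s M, Sc s M → Sc (-s) M⁻¹)
    (sm : ∀ s s' M M', Sc s M → Sc s' M' → Sc (s * s') (M.comp M')) {d : ℕ} (hd : 0 < d)
    (L : Kˣ → Q →* Q) (hL : ∀ t : Kˣ, Sc (t ^ d) (L t))
    (hA : ∀ σ ∈ P, ∀ t q, A σ (L t q) = L (Units.map (σ : K →* K) t) (A σ q))
    (c : (K ≃ₐ[k] K) → Q) (hc : ∀ σ ∈ P, ∀ τ ∈ P, c (σ * τ) = c σ * A σ (c τ))
    (hn : Op P fun σ => c σ = 1) : ∃ b, ∀ σ ∈ P, b * c σ = A σ b := by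
  have s0 : Sc 0 1 := by simpa using sa _ _ _ _ s1 (sn _ _ s1)
  let B : Subring K :=
    { carrier := {s | ∃ M : P → Q →* Q, ∀ ρ, Sc (ρ.1 s) (M ρ) ∧
        ∀ (σ : P) q, A σ (M ρ q) = M (σ * ρ) (A σ q)}
      mul_mem' := fun ⟨M, h⟩ ⟨M', h'⟩ => ⟨fun ρ => (M ρ).comp (M' ρ), fun ρ =>
        ⟨map_mul ρ.1 _ _ ▸ sm _ _ _ _ (h ρ).1 (h' ρ).1, fun σ q => by
          simp only [MonoidHom.comp_apply, (h ρ).2, (h' ρ).2]⟩⟩
      one_mem' := ⟨fun _ => MonoidHom.id Q, fun ρ => ⟨(map_one ρ.1).symm ▸ s1, fun _ _ => rfl⟩⟩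
      add_mem' := fun ⟨M, h⟩ ⟨M', h'⟩ => ⟨fun ρ => M ρ * M' ρ, fun ρ =>
        ⟨map_add ρ.1 _ _ ▸ sa _ _ _ _ (h ρ).1 (h' ρ).1, fun σ q => by
          simp only [MonoidHom.mul_apply, map_mul, (h ρ).2, (h' ρ).2]⟩⟩
      zero_mem' := ⟨fun _ => 1, fun ρ => ⟨(map_zero ρ.1).symm ▸ s0, fun _ _ => map_one _⟩⟩
      neg_mem' := fun ⟨M, h⟩ => ⟨fun ρ => (M ρ)⁻¹, fun ρ =>
        ⟨map_neg ρ.1 _ ▸ sn _ _ (h ρ).1, fun σ q => by
          simp only [MonoidHom.inv_apply, map_inv, (h ρ).2]⟩⟩ }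
  obtain ⟨S, hS⟩ := hn
  obtain ⟨ι, _, r, s, ⟨M, hM⟩, h1, h2⟩ := exists_tr (P := P) S hd B fun x => by
    by_cases e : x = 0
    · rw [e, zero_pow hd.ne']
      exact zero_mem _
    · exact ⟨fun ρ => L (Units.map (ρ.1 : K →* K) (Units.mk0 x e)), fun ρ =>
        ⟨by simpa using hL (Units.map (ρ.1 : K →* K) (Units.mk0 x e)), fun σ q =>
          hA σ σ.2 _ q⟩⟩
  have h3 : ∀ (f : ι → P) (t : Finset ι), Sc (∑ i ∈ t, (f i).1 s) (∏ i ∈ t, M (f i)) := by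
    classical
    intro f t
    induction t using Finset.induction_on with
    | empty => simpa using s0
    | insert i t hi ih =>
      rw [Finset.sum_insert hi, Finset.prod_insert hi]
      exact sa _ _ _ _ (hM _).1 ih
  refine ⟨(∏ i, M (r i) (c (r i)))⁻¹, fun σ hσ => ?_⟩
  obtain ⟨e, he⟩ := h2 ⟨σ, hσ⟩
  have h4 := h3 (fun i => ⟨σ, hσ⟩ * r i) Finset.univ
  rw [show ∑ i, (⟨σ, hσ⟩ * r i : P).1 s = 1 from
    (map_sum σ (fun i => (r i).1 s) _).symm.trans (by rw [h1, map_one])] at h4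
  have h5 := DFunLike.congr_fun (uq _ _ _ h4 s1) (c σ)
  rw [MonoidHom.finsetProd_apply, MonoidHom.id_apply] at h5
  rw [map_inv, inv_mul_eq_iff_eq_mul, eq_mul_inv_iff_mul_eq, map_prod, ← h5,
    ← Finset.prod_mul_distrib, ← Equiv.prod_comp e fun i => M (r i) (c (r i))]
  refine Finset.prod_congr rfl fun i _ => ?_
  obtain ⟨n, n1, n2, n3⟩ := he i
  have h6 : M (r (e i)) = M (⟨σ, hσ⟩ * r i) := uq _ _ _ (hM _).1 (by
    have := (hM (⟨σ, hσ⟩ * r i)).1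
    rwa [← n2, ← AlgEquiv.mul_apply, ← Subgroup.coe_mul, ← n3] at this)
  rw [h6, (hM (r i)).2 ⟨σ, hσ⟩, ← map_mul, ← hc σ hσ _ (r i).2, n3, Subgroup.coe_mul,
    hc _ (Subtype.prop _) _ n.2, hS _ n.2 n1, map_one, mul_one]
  rfl

/-- abelian layers -/
theorem exists_layer {G : Type} [Group G] {A B : Subgroup G} (hB : B ≤ A)
    (h : ∀ a ∈ A, ∀ b ∈ A, a * b * a⁻¹ * b⁻¹ ∈ B) : ∃ (Q : Type) (_ : CommGroup Q) (φ : G → Q),
    (∀ a ∈ A, ∀ b ∈ A, φ (a * b) = φ a * φ b) ∧ (∀ a ∈ A, φ a = 1 ↔ a ∈ B) ∧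
    (∀ q, ∃ a ∈ A, φ a = q) ∧ ∀ f : MulAut G, (∀ a ∈ A, f a ∈ A) → (∀ a ∈ B, f a ∈ B) →
      ∃ f' : Q →* Q, ∀ a ∈ A, f' (φ a) = φ (f a) := by
  classical
  have : (B.subgroupOf A).Normal := ⟨fun x hx g => by
    simpa [mem_subgroupOf] using mul_mem (h g g.2 x x.2) hx⟩
  refine ⟨A ⧸ B.subgroupOf A, { (inferInstance : Group _) with mul_comm := fun a b => ?_ },
    fun g => if h : g ∈ A then QuotientGroup.mk ⟨g, h⟩ else 1, fun a ha b hb => ?_, fun a ha => ?_,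
    fun q => ⟨q.out, q.out.2, ?_⟩, fun f h1 h2 => ⟨QuotientGroup.map _ _
      ((f.toMonoidHom.comp A.subtype).codRestrict A fun a => h1 a a.2) fun a ha => h2 a ha,
      fun a ha => ?_⟩⟩
  · obtain ⟨a, rfl⟩ := QuotientGroup.mk_surjective a
    obtain ⟨b, rfl⟩ := QuotientGroup.mk_surjective b
    exact QuotientGroup.eq.2 (by
      simpa [mem_subgroupOf, mul_assoc] using h _ (inv_mem b.2) _ (inv_mem a.2))
  · simp only [dif_pos ha, dif_pos hb, dif_pos (mul_mem ha hb)]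
    rfl
  · simp only [dif_pos ha]
    exact QuotientGroup.eq_one_iff _
  · simp only [dif_pos q.out.2]
    exact q.out_eq'
  · simp only [dif_pos ha, dif_pos (h1 a ha)]
    rfl

variable {R : RS} {G : Type} [Group G] {Γ : RG R K G} {m : Fin R.r → ℤ} {J : Set (Fin R.r)}
  (hΓ : Γ.Ok)

/-- actions which preserve the parabolic subgroup of the cocharacter `m` -/
structure PA (m : Fin R.r → ℤ) (P : Subgroup (K ≃ₐ[k] K)) (a : (K ≃ₐ[k] K) → MulAut G) : Prop where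
  mul : ∀ σ ∈ P, ∀ τ ∈ P, a (σ * τ) = a σ * a τ
  sm : ∀ y, Op P fun σ => a σ y = y
  rj : ∀ σ ∈ P, ∀ l, 0 < l → ∀ v ∈ RJ Γ m l, a σ v ∈ RJ Γ m l
  lam : ∀ σ ∈ P, ∃ u ∈ RJ Γ m 1, ∀ t,
    a σ (co hΓ m t) = u * co hΓ m (Units.map (σ : K →* K) t) * u⁻¹

variable {hΓ} {a : (K ≃ₐ[k] K) → MulAut G} (h : PA hΓ m P a) (hR : R.Ok) (hm : Dom m J)
include h hR hm

theorem PA.step {l : ℕ} (hl : 0 < l) (z : (K ≃ₐ[k] K) → G)
    (hz : ∀ σ ∈ P, ∀ τ ∈ P, z (σ * τ) = z σ * a σ (z τ)) (hn : Op P fun σ => z σ = 1)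
    (hv : ∀ σ ∈ P, z σ ∈ RJ Γ m l) :
    ∃ b ∈ RJ Γ m l, ∀ σ ∈ P, b * z σ * (a σ b)⁻¹ ∈ RJ Γ m (l + 1) := by
  classical
  have c1 : ∀ u ∈ RJ Γ m 1, ∀ v ∈ RJ Γ m l, u * v * u⁻¹ * v⁻¹ ∈ RJ Γ m (l + 1) :=
    fun u hu v hv => add_comm 1 l ▸ comm_RJ hΓ hR hm hu hv
  obtain ⟨Q, _, φ, h1, h2, h3, h4⟩ := exists_layer (RJ_mono (Γ := Γ) (m := m) l.le_succ)
    fun u hu => c1 u (RJ_mono hl hu)
  have h0 : φ 1 = 1 := (h2 1 (one_mem _)).2 (one_mem _)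
  have hi : ∀ v ∈ RJ Γ m l, φ v⁻¹ = (φ v)⁻¹ := fun v hv =>
    eq_inv_of_mul_eq_one_left (by rw [← h1 _ (inv_mem hv) _ hv, inv_mul_cancel, h0])
  have c2 : ∀ u ∈ RJ Γ m 1, ∀ v ∈ RJ Γ m l, φ (u * v * u⁻¹) = φ v := fun u hu v hv => by
    rw [← inv_mul_cancel_right (u * v * u⁻¹) v, h1 _ (RJ_mono l.le_succ (c1 u hu v hv)) _ hv,
      (h2 _ (RJ_mono l.le_succ (c1 u hu v hv))).2 (c1 u hu v hv), one_mul]
  have nT := fun l t => hΓ.nm_T_X (Lv m l) _ (co_mem hΓ (m := m) t)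
  choose L hL using fun t => h4 (MulAut.conj (co hΓ m t)) (nT l t) (nT _ t)
  choose! A hA using fun σ hσ => h4 (a σ) (h.rj σ hσ l hl) (h.rj σ hσ _ l.succ_pos)
  have xm : ∀ γ ∈ Lv m l, ∀ t, Γ.x γ t ∈ RJ Γ m l := fun γ e t => RG.x_mem e.1.1 e t
  have xa : ∀ γ ∈ Lv m l, ∀ t u, φ (Γ.x γ (t + u)) = φ (Γ.x γ t) * φ (Γ.x γ u) := fun γ e t u => by
    rw [hΓ.add γ e.1.1, h1 _ (xm γ e t) _ (xm γ e u)]
  obtain ⟨b, hb⟩ := h90_add (P := P) A
    (fun s M => ∀ γ ∈ Lv m l, ∀ t, M (φ (Γ.x γ t)) = φ (Γ.x γ (s * t)))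
    (fun s M M' e e' => MonoidHom.ext fun q => by
      obtain ⟨v, hv, rfl⟩ := h3 q
      exact hΓ.X_ind (P := fun v => M (φ v) = M' (φ v)) (by rw [h0, map_one, map_one])
        (fun γ e1 _ t => (e γ e1 t).trans (e' γ e1 t).symm)
        (fun u hu v hv e1 e2 => by rw [h1 u hu v hv, map_mul, map_mul, e1, e2]) hv)
    (fun γ _ t => by rw [one_mul]; rfl)
    (fun s s' M M' e e' γ e1 t => by rw [add_mul, xa γ e1, ← e γ e1, ← e' γ e1]; rfl)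
    (fun s M e γ e1 t => by rw [neg_mul, hΓ.x_neg e1.1.1, hi _ (xm γ e1 _), ← e γ e1]; rfl)
    (fun s s' M M' e e' γ e1 t => by rw [mul_assoc, ← e γ e1, ← e' γ e1]; rfl) hl L
    (fun t γ e1 u => by
      rw [hL t _ (xm γ e1 u), MulAut.conj_apply, co_x hΓ e1.1.1]
      rcases e1.2.eq_or_lt with e2 | e2
      · rw [← e2, zpow_natCast, Units.val_pow_eq_pow_val]
      · have h5 : ∀ u, φ (Γ.x γ u) = 1 := fun u => (h2 _ (xm γ e1 u)).2
          (RG.x_mem (S := Lv m (l + 1)) e1.1.1 ⟨e1.1, by push_cast; omega⟩ u)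
        rw [h5, h5])
    (fun σ hσ t q => by
      obtain ⟨v, hv, rfl⟩ := h3 q
      obtain ⟨u, hu, e⟩ := h.lam σ hσ
      have h5 := h.rj σ hσ l hl v hv
      have h6 := nm_U hΓ hR hm _ (RJ_le_U (inv_mem hu)) _ h5
      rw [hL t v hv, MulAut.conj_apply, hA σ hσ _ (nT l t v hv), hA σ hσ v hv,
        ← c2 _ (inv_mem hu) _ h5, hL _ _ h6, MulAut.conj_apply, ← c2 u hu _ (nT l _ _ h6), map_mul,
        map_mul, map_inv, e]
      exact congrArg φ (by group))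
    (fun σ => φ (z σ)) (fun σ hσ τ hτ => by
      rw [hz σ hσ τ hτ, h1 _ (hv σ hσ) _ (h.rj σ hσ l hl _ (hv τ hτ)), hA σ hσ _ (hv τ hτ)])
    (hn.imp fun σ _ e => by rw [e, h0])
  obtain ⟨b, hb', rfl⟩ := h3 b
  refine ⟨b, hb', fun σ hσ => ?_⟩
  have h5 := h.rj σ hσ l hl b hb'
  rw [← h2 _ (mul_mem (mul_mem hb' (hv σ hσ)) (inv_mem h5)),
    h1 _ (mul_mem hb' (hv σ hσ)) _ (inv_mem h5), h1 _ hb' _ (hv σ hσ), hb σ hσ, hA σ hσ b hb',
    hi _ h5, mul_inv_cancel]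

/-- **Unipotent descent.** -/
theorem PA.ud {l : ℕ} (hl : 0 < l) (z : (K ≃ₐ[k] K) → G)
    (hz : ∀ σ ∈ P, ∀ τ ∈ P, z (σ * τ) = z σ * a σ (z τ)) (hn : Op P fun σ => z σ = 1)
    (hv : ∀ σ ∈ P, z σ ∈ RJ Γ m l) : ∃ y ∈ RJ Γ m l, ∀ σ ∈ P, z σ = y⁻¹ * a σ y := by
  obtain ⟨M, hM⟩ := RJ_top (Γ := Γ) m
  obtain ⟨n, hn'⟩ : ∃ n, M ≤ l + n := ⟨M, by omega⟩
  induction n generalizing l z with
  | zero => exact ⟨1, one_mem _, fun σ hσ => by simpa using hM _ (RJ_mono hn' (hv σ hσ))⟩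
  | succ n ih =>
    obtain ⟨b, h1, h2⟩ := h.step hR hm hl z hz hn hv
    obtain ⟨y, h3, h4⟩ := ih l.succ_pos (fun σ => b * z σ * (a σ b)⁻¹) (fun σ hσ τ hτ => by
      rw [hz σ hσ τ hτ, h.mul σ hσ τ hτ, map_mul, map_mul, map_inv, MulAut.mul_apply]
      group) ((hn.and (h.sm b)).imp fun σ _ e => by rw [e.1, e.2]; group) h2 (by omega)
    refine ⟨y * b, mul_mem (RJ_mono l.le_succ h3) h1, fun σ hσ => ?_⟩
    rw [map_mul, _root_.mul_inv_rev, mul_assoc, ← mul_assoc y⁻¹, ← h4 σ hσ]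
    group

/-- A conjugate of the cocharacter is equivariant. -/
theorem PA.levi : ∃ y ∈ RJ Γ m 1, ∀ σ ∈ P, ∀ t,
    a σ (y * co hΓ m t * y⁻¹) = y * co hΓ m (Units.map (σ : K →* K) t) * y⁻¹ := by
  have := Infinite.of_injective _ (algebraMap k K).injective
  obtain ⟨t, ht⟩ := exists_gen (K := K) m
  choose! u hu e using h.lam
  have uq : ∀ u ∈ RJ Γ m 1, ∀ v ∈ RJ Γ m 1,
      u * co hΓ m t * u⁻¹ = v * co hΓ m t * v⁻¹ → u⁻¹ = v⁻¹ := fun u hu v hv e =>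
    mul_inv_eq_one.1 (cent_RJ hΓ hR hm ht (mul_mem (inv_mem hu) (inv_mem (inv_mem hv))) (by
      rw [show co hΓ m t * (u⁻¹ * v⁻¹⁻¹) * (co hΓ m t)⁻¹ = u⁻¹ *
        (u * co hΓ m t * u⁻¹) * v * (co hΓ m t)⁻¹ by group, e]
      group))
  obtain ⟨y, h1, h2⟩ := h.ud hR hm one_pos (fun σ => (u σ)⁻¹) (fun σ hσ τ hτ => by
    obtain ⟨s, hs⟩ : ∃ s, Units.map ((σ * τ : K ≃ₐ[k] K) : K →* K) s = t :=
      ⟨Units.map ((σ * τ).symm : K →* K) t, Units.ext ((σ * τ).apply_symm_apply _)⟩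
    rw [map_inv, ← _root_.mul_inv_rev]
    refine uq _ (hu _ (mul_mem hσ hτ)) _ (mul_mem (h.rj σ hσ 1 one_pos _ (hu τ hτ)) (hu σ hσ)) ?_
    rw [← hs, ← e _ (mul_mem hσ hτ), h.mul σ hσ τ hτ, MulAut.mul_apply, e τ hτ, map_mul, map_mul,
      map_inv, e σ hσ]
    simp only [_root_.mul_inv_rev, mul_assoc]
    rfl)
    (((h.sm (co hΓ m t)).and (Op.fix P (t : K))).imp fun σ hσ c => by
      have := e σ hσ t
      rw [c.1, show Units.map (σ : K →* K) t = t from Units.ext c.2] at this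
      simpa using uq _ (hu σ hσ) 1 (one_mem _) (by simpa using this.symm))
    fun σ hσ => inv_mem (hu σ hσ)
  refine ⟨y, h1, fun σ hσ t => ?_⟩
  rw [map_mul, map_mul, map_inv, e σ hσ, inv_mul_eq_iff_eq_mul.1 (h2 σ hσ).symm]
  group

end Vale.Agent.P011UP
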